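import Vale.Agent.P265.Dis.Model
import Vale.Agent.P265.Flat.LDefs

open Set Manifold
open scoped ContDiff

namespace Vale.Agent.P265.Dis

open Vale.Agent.P265.Loc

/-- Assembly of the disproof: a symplectic form, a nondegenerate Hamiltonian flow with at most
`16` fixed points, and the lower bound `17` for the stable Morse number. -/
theorem final_of [ConnectedSpace M]
    (hu : ∃ (om : FormField V M) (H : ℝ → M → ℝ) (φ : ℝ → M → M), IsSymplectic om ∧
      IsHamiltonianFlow om H φ ∧ NondegFixedPoints V (φ 1) ∧ (Fix0 φ).encard ≤ 16)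
    (hl : 17 ≤ StableMorseNumber V M) :
    ∃ (M : Type) (_ : TopologicalSpace M) (_ : T2Space M) (_ : CompactSpace M)
      (_ : ConnectedSpace M) (_ : ChartedSpace (EuclideanSpace ℝ (Fin 6)) M)
      (_ : IsManifold 𝓘(ℝ, EuclideanSpace ℝ (Fin 6)) ∞ M)
      (om : FormField (EuclideanSpace ℝ (Fin 6)) M) (H : ℝ → M → ℝ) (φ : ℝ → M → M),
      IsSymplectic om ∧ IsHamiltonianFlow om H φ ∧
        NondegFixedPoints (EuclideanSpace ℝ (Fin 6)) (φ 1) ∧
        (Fix0 φ).encard < StableMorseNumber (EuclideanSpace ℝ (Fin 6)) M := by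
  obtain ⟨om, H, φ, h1, h2, h3, h4⟩ := hu
  refine ⟨M, inferInstance, inferInstance, inferInstance, inferInstance, inferInstance,
    inferInstance, om, H, φ, h1, h2, h3, ?_⟩
  exact (h4.trans_lt (by norm_num)).trans_le hl

end Vale.Agent.P265.Dis
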