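import Vale.Agent.P265.H936.LS
import Mathlib.Analysis.Quaternion
import Mathlib.Analysis.InnerProductSpace.PiL2
import Mathlib.Analysis.InnerProductSpace.Calculus
import Mathlib.Analysis.Calculus.FDeriv.Pow
import Mathlib.Analysis.Calculus.Deriv.Pow
import Mathlib.Analysis.Complex.Basic
import Mathlib.LinearAlgebra.Complex.FiniteDimensional

open Module Set
open scoped Quaternion ContDiff

namespace Vale.Agent.P265.Dis

/-- The ambient space of `W`: points `w = (c, z1, z2, s)`. -/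
abbrev A := ℂ × ℂ × ℂ × ℝ

/-- The ambient space of the sphere: (imaginary unit) quaternions. -/
abbrev B := ℍ[ℝ]

/-- The ambient space: points `x = (w, v)`. -/
abbrev E := A × B

/-- The target of the defining map. -/
abbrev F := ℝ × ℝ × ℝ × ℝ × ℝ

/-- The model space of the manifold. -/
abbrev V := EuclideanSpace ℝ (Fin 6)

/-- `f = z1² + z2³`. -/
def fW (w : A) : ℂ := w.2.1 ^ 2 + w.2.2.1 ^ 3

/-- `D = z1² - z2³`. -/
def dW (w : A) : ℂ := w.2.1 ^ 2 - w.2.2.1 ^ 3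

/-- The defining map. -/
noncomputable def G (x : E) : F :=
  (‖x.1.1‖ ^ 2 - 1, ‖fW x.1‖ ^ 2 - 1, ‖dW x.1‖ ^ 2 + x.1.2.2.2 ^ 2 - 4, ‖x.2‖ ^ 2 - 1, x.2.re)

/-- The real part of a quaternion as a continuous linear map. -/
noncomputable def reL : ℍ[ℝ] →L[ℝ] ℝ :=
  LinearMap.toContinuousLinearMap
    { toFun := fun q => q.re
      map_add' := fun _ _ => rfl
      map_smul' := fun _ _ => rfl }

@[simp] theorem reL_apply (q : ℍ[ℝ]) : reL q = q.re := rfl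

theorem contDiff_re : ContDiff ℝ ∞ (fun q : ℍ[ℝ] => q.re) := reL.contDiff

theorem contDiff_fW : ContDiff ℝ ∞ fW := by
  unfold fW; fun_prop

theorem contDiff_dW : ContDiff ℝ ∞ dW := by
  unfold dW; fun_prop

theorem contDiff_G : ContDiff ℝ ∞ G := by
  unfold G
  have h1 : ContDiff ℝ ∞ (fun x : E => fW x.1) := contDiff_fW.comp contDiff_fst
  have h2 : ContDiff ℝ ∞ (fun x : E => dW x.1) := contDiff_dW.comp contDiff_fst
  have h3 : ContDiff ℝ ∞ (fun x : E => x.2.re) := contDiff_re.comp contDiff_snd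
  have h4 : ContDiff ℝ ∞ (fun x : E => ‖x.1.1‖ ^ 2) :=
    (contDiff_norm_sq ℝ).comp (by fun_prop)
  have h5 : ContDiff ℝ ∞ (fun x : E => ‖fW x.1‖ ^ 2) := (contDiff_norm_sq ℝ).comp h1
  have h6 : ContDiff ℝ ∞ (fun x : E => ‖dW x.1‖ ^ 2) := (contDiff_norm_sq ℝ).comp h2
  have h7 : ContDiff ℝ ∞ (fun x : E => ‖x.2‖ ^ 2) := (contDiff_norm_sq ℝ).comp contDiff_snd
  exact (h4.sub contDiff_const).prodMk ((h5.sub contDiff_const).prodMk
    (((h6.add (by fun_prop)).sub contDiff_const).prodMk ((h7.sub contDiff_const).prodMk h3)))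

theorem hasFDerivAt_fW (w : A) : HasFDerivAt fW
    ((2 * w.2.1) • ((ContinuousLinearMap.fst ℝ ℂ (ℂ × ℝ)).comp
        (ContinuousLinearMap.snd ℝ ℂ (ℂ × ℂ × ℝ))) +
      (3 * w.2.2.1 ^ 2) • ((ContinuousLinearMap.fst ℝ ℂ ℝ).comp
        ((ContinuousLinearMap.snd ℝ ℂ (ℂ × ℝ)).comp
          (ContinuousLinearMap.snd ℝ ℂ (ℂ × ℂ × ℝ))))) w := by
  have h1 : HasFDerivAt (fun w : A => w.2.1) ((ContinuousLinearMap.fst ℝ ℂ (ℂ × ℝ)).comp
        (ContinuousLinearMap.snd ℝ ℂ (ℂ × ℂ × ℝ))) w :=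
    ((ContinuousLinearMap.fst ℝ ℂ (ℂ × ℝ)).comp
        (ContinuousLinearMap.snd ℝ ℂ (ℂ × ℂ × ℝ))).hasFDerivAt
  have h2 : HasFDerivAt (fun w : A => w.2.2.1) ((ContinuousLinearMap.fst ℝ ℂ ℝ).comp
        ((ContinuousLinearMap.snd ℝ ℂ (ℂ × ℝ)).comp
          (ContinuousLinearMap.snd ℝ ℂ (ℂ × ℂ × ℝ)))) w :=
    ((ContinuousLinearMap.fst ℝ ℂ ℝ).comp
        ((ContinuousLinearMap.snd ℝ ℂ (ℂ × ℝ)).comp
          (ContinuousLinearMap.snd ℝ ℂ (ℂ × ℂ × ℝ)))).hasFDerivAt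
  have := (h1.pow 2).add (h2.pow 3)
  refine this.congr_fderiv ?_
  ext x <;> simp

/-- The derivative of `f`. -/
def dfW (w ξ : A) : ℂ := 2 * w.2.1 * ξ.2.1 + 3 * w.2.2.1 ^ 2 * ξ.2.2.1

/-- The derivative of `D`. -/
def ddW (w ξ : A) : ℂ := 2 * w.2.1 * ξ.2.1 - 3 * w.2.2.1 ^ 2 * ξ.2.2.1

theorem hasFDerivAt_dW (w : A) : HasFDerivAt dW
    ((2 * w.2.1) • ((ContinuousLinearMap.fst ℝ ℂ (ℂ × ℝ)).comp
        (ContinuousLinearMap.snd ℝ ℂ (ℂ × ℂ × ℝ))) -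
      (3 * w.2.2.1 ^ 2) • ((ContinuousLinearMap.fst ℝ ℂ ℝ).comp
        ((ContinuousLinearMap.snd ℝ ℂ (ℂ × ℝ)).comp
          (ContinuousLinearMap.snd ℝ ℂ (ℂ × ℂ × ℝ))))) w := by
  have h1 : HasFDerivAt (fun w : A => w.2.1) ((ContinuousLinearMap.fst ℝ ℂ (ℂ × ℝ)).comp
        (ContinuousLinearMap.snd ℝ ℂ (ℂ × ℂ × ℝ))) w :=
    ((ContinuousLinearMap.fst ℝ ℂ (ℂ × ℝ)).comp
        (ContinuousLinearMap.snd ℝ ℂ (ℂ × ℂ × ℝ))).hasFDerivAt
  have h2 : HasFDerivAt (fun w : A => w.2.2.1) ((ContinuousLinearMap.fst ℝ ℂ ℝ).comp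
        ((ContinuousLinearMap.snd ℝ ℂ (ℂ × ℝ)).comp
          (ContinuousLinearMap.snd ℝ ℂ (ℂ × ℂ × ℝ)))) w :=
    ((ContinuousLinearMap.fst ℝ ℂ ℝ).comp
        ((ContinuousLinearMap.snd ℝ ℂ (ℂ × ℝ)).comp
          (ContinuousLinearMap.snd ℝ ℂ (ℂ × ℂ × ℝ)))).hasFDerivAt
  have := (h1.pow 2).sub (h2.pow 3)
  refine this.congr_fderiv ?_
  ext x <;> simp

theorem fderiv_fW (w ξ : A) : fderiv ℝ fW w ξ = dfW w ξ := by
  rw [(hasFDerivAt_fW w).fderiv]; simp [dfW]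

theorem fderiv_dW (w ξ : A) : fderiv ℝ dW w ξ = ddW w ξ := by
  rw [(hasFDerivAt_dW w).fderiv]; simp [ddW]

/-- The derivative of the defining map. -/
theorem fderiv_G (x ξ : E) : fderiv ℝ G x ξ =
    (2 * inner ℝ x.1.1 ξ.1.1, 2 * inner ℝ (fW x.1) (dfW x.1 ξ.1),
      2 * inner ℝ (dW x.1) (ddW x.1 ξ.1) + 2 * x.1.2.2.2 * ξ.1.2.2.2,
      2 * inner ℝ x.2 ξ.2, ξ.2.re) := by
  have e1 : HasFDerivAt (fun x : E => x.1.1) ((ContinuousLinearMap.fst ℝ ℂ (ℂ × ℂ × ℝ)).comp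
      (ContinuousLinearMap.fst ℝ A B)) x :=
    ((ContinuousLinearMap.fst ℝ ℂ (ℂ × ℂ × ℝ)).comp
      (ContinuousLinearMap.fst ℝ A B)).hasFDerivAt
  have e2 : HasFDerivAt (fun x : E => fW x.1) ((fderiv ℝ fW x.1).comp
      (ContinuousLinearMap.fst ℝ A B)) x :=
    (contDiff_fW.differentiable (by simp) x.1).hasFDerivAt.comp x hasFDerivAt_fst
  have e3 : HasFDerivAt (fun x : E => dW x.1) ((fderiv ℝ dW x.1).comp
      (ContinuousLinearMap.fst ℝ A B)) x :=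
    (contDiff_dW.differentiable (by simp) x.1).hasFDerivAt.comp x hasFDerivAt_fst
  have e4 : HasFDerivAt (fun x : E => x.1.2.2.2) ((ContinuousLinearMap.snd ℝ ℂ ℝ).comp
        ((ContinuousLinearMap.snd ℝ ℂ (ℂ × ℝ)).comp
          ((ContinuousLinearMap.snd ℝ ℂ (ℂ × ℂ × ℝ)).comp
      (ContinuousLinearMap.fst ℝ A B)))) x :=
    ((ContinuousLinearMap.snd ℝ ℂ ℝ).comp
        ((ContinuousLinearMap.snd ℝ ℂ (ℂ × ℝ)).comp
          ((ContinuousLinearMap.snd ℝ ℂ (ℂ × ℂ × ℝ)).comp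
      (ContinuousLinearMap.fst ℝ A B)))).hasFDerivAt
  have e5 : HasFDerivAt (fun x : E => x.2) (ContinuousLinearMap.snd ℝ A B) x := hasFDerivAt_snd
  have e6 : HasFDerivAt (fun x : E => x.2.re) (reL.comp (ContinuousLinearMap.snd ℝ A B)) x :=
    (reL.comp (ContinuousLinearMap.snd ℝ A B)).hasFDerivAt
  have h := (e1.norm_sq.sub_const 1).prodMk ((e2.norm_sq.sub_const 1).prodMk
    (((e3.norm_sq.add (e4.pow 2)).sub_const 4).prodMk ((e5.norm_sq.sub_const 1).prodMk e6)))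
  have h' : fderiv ℝ G x = _ := h.fderiv
  rw [h']
  simp only [ContinuousLinearMap.prod_apply, add_apply,
    smul_apply, ContinuousLinearMap.comp_apply, innerSL_apply_apply,
    ContinuousLinearMap.coe_fst', ContinuousLinearMap.coe_snd', fderiv_fW, fderiv_dW, reL_apply,
    smul_eq_mul, nsmul_eq_mul, Nat.cast_ofNat, pow_one, Nat.add_one_sub_one]

/-- The fibre direction `τ = (3 z2², -2 z1)` and the multiplier `m = 12 conj(D) z1 z2²`. -/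
def mW (w : A) : ℂ := 12 * (starRingEnd ℂ) (dW w) * w.2.1 * w.2.2.1 ^ 2

theorem mem_iff (x : E) : G x = 0 ↔ ‖x.1.1‖ = 1 ∧ ‖fW x.1‖ = 1 ∧
    ‖dW x.1‖ ^ 2 + x.1.2.2.2 ^ 2 = 4 ∧ ‖x.2‖ = 1 ∧ x.2.re = 0 := by
  have key : ∀ r : ℝ, 0 ≤ r → (r ^ 2 - 1 = 0 ↔ r = 1) := fun r hr => by
    constructor
    · intro h; nlinarith
    · rintro rfl; norm_num
  simp only [G, Prod.mk_eq_zero, key _ (norm_nonneg _), sub_eq_zero (b := (4 : ℝ))]

theorem mW_ne_zero {w : A} (hf : ‖fW w‖ = 1) (hD : ‖dW w‖ ^ 2 + w.2.2.2 ^ 2 = 4)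
    (hs : w.2.2.2 = 0) : mW w ≠ 0 := by
  have hD2 : ‖dW w‖ = 2 := by
    rw [hs] at hD
    nlinarith [norm_nonneg (dW w)]
  have h1 : w.2.1 ≠ 0 := by
    intro h
    have : dW w = - fW w := by simp [dW, fW, h]
    rw [this, norm_neg, hf] at hD2
    norm_num at hD2
  have h2 : w.2.2.1 ≠ 0 := by
    intro h
    have : dW w = fW w := by simp [dW, fW, h]
    rw [this, hf] at hD2
    norm_num at hD2
  have h3 : dW w ≠ 0 := by
    intro h
    rw [h] at hD2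
    norm_num at hD2
  simp [mW, h1, h2, h3]

theorem surj_fderiv_G (x : E) (hx : G x = 0) : Function.Surjective (fderiv ℝ G x) := by
  obtain ⟨hc, hf, hD, hv, hre⟩ := (mem_iff x).1 hx
  rintro ⟨y1, y2, y3, y4, y5⟩
  set w := x.1 with hw
  set m := mW w with hm
  have hpos : 0 < ‖m‖ ^ 2 + w.2.2.2 ^ 2 := by
    by_cases hs : w.2.2.2 = 0
    · have := mW_ne_zero hf hD hs
      have : 0 < ‖m‖ := norm_pos_iff.2 this
      positivity
    · positivity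
  set t := y2 / 2 with ht
  set r := (y3 - 2 * t * ‖dW w‖ ^ 2) / (2 * (‖m‖ ^ 2 + w.2.2.2 ^ 2)) with hr
  refine ⟨(((y1 / 2 : ℝ) * w.1, ((t / 2 : ℝ) : ℂ) * w.2.1 +
      (r : ℂ) * (3 * w.2.2.1 ^ 2 * (starRingEnd ℂ) m),
      ((t / 3 : ℝ) : ℂ) * w.2.2.1 - (r : ℂ) * (2 * w.2.1 * (starRingEnd ℂ) m),
      r * w.2.2.2), (y4 / 2) • x.2 + y5 • (1 : ℍ[ℝ])), ?_⟩
  rw [fderiv_G]
  have hdf : dfW w ((y1 / 2 : ℝ) * w.1, ((t / 2 : ℝ) : ℂ) * w.2.1 +
      (r : ℂ) * (3 * w.2.2.1 ^ 2 * (starRingEnd ℂ) m),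
      ((t / 3 : ℝ) : ℂ) * w.2.2.1 - (r : ℂ) * (2 * w.2.1 * (starRingEnd ℂ) m),
      r * w.2.2.2) = t * fW w := by
    simp only [dfW, fW]; push_cast; ring
  have hdd : ddW w ((y1 / 2 : ℝ) * w.1, ((t / 2 : ℝ) : ℂ) * w.2.1 +
      (r : ℂ) * (3 * w.2.2.1 ^ 2 * (starRingEnd ℂ) m),
      ((t / 3 : ℝ) : ℂ) * w.2.2.1 - (r : ℂ) * (2 * w.2.1 * (starRingEnd ℂ) m),
      r * w.2.2.2) = t * dW w + r * (12 * w.2.1 * w.2.2.1 ^ 2) * (starRingEnd ℂ) m := by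
    simp only [ddW, dW]; push_cast; ring
  simp only [Prod.mk.injEq]
  refine ⟨?_, ?_, ?_, ?_, ?_⟩
  · rw [← Complex.real_smul, inner_smul_right, real_inner_self_eq_norm_sq, hc]; ring
  · rw [hdf, ← Complex.real_smul, inner_smul_right, real_inner_self_eq_norm_sq, hf]
    rw [ht]; ring
  · rw [hdd]
    have e : inner ℝ (dW w) (t * dW w + r * (12 * w.2.1 * w.2.2.1 ^ 2) * (starRingEnd ℂ) m) =
        t * ‖dW w‖ ^ 2 + r * ‖m‖ ^ 2 := by
      have e1 : t * dW w + r * (12 * w.2.1 * w.2.2.1 ^ 2) * (starRingEnd ℂ) m =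
          t • dW w + r • ((12 * w.2.1 * w.2.2.1 ^ 2) * (starRingEnd ℂ) m) := by
        simp only [Complex.real_smul]; ring
      rw [e1, inner_add_right, inner_smul_right, inner_smul_right, real_inner_self_eq_norm_sq]
      have e2 : inner ℝ (dW w) ((12 * w.2.1 * w.2.2.1 ^ 2) * (starRingEnd ℂ) m) = ‖m‖ ^ 2 := by
        rw [Complex.inner]
        have : ((12 * w.2.1 * w.2.2.1 ^ 2) * (starRingEnd ℂ) m) * (starRingEnd ℂ) (dW w) =
            m * (starRingEnd ℂ) m := by rw [hm, mW]; ring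
        rw [this, Complex.mul_conj, Complex.normSq_eq_norm_sq]
        exact Complex.ofReal_re _
      rw [e2]
    rw [e]
    have : r * (2 * (‖m‖ ^ 2 + w.2.2.2 ^ 2)) = y3 - 2 * t * ‖dW w‖ ^ 2 := by
      rw [hr]; field_simp
    linarith
  · rw [inner_add_right, inner_smul_right, inner_smul_right, real_inner_self_eq_norm_sq, hv]
    have : inner ℝ x.2 (1 : ℍ[ℝ]) = 0 := by
      rw [Quaternion.inner_def]; simp [hre]
    rw [this]; ring
  · simp [hre]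

theorem finrank_E : finrank ℝ E = finrank ℝ F + finrank ℝ V := by
  simp [Module.finrank_prod, Complex.finrank_real_complex, Quaternion.finrank_eq_four]

/-- The level set. -/
noncomputable def RL : LS.RegLevel E F V where
  G := G
  smooth := contDiff_G
  surj := surj_fderiv_G
  dim := finrank_E

/-- The manifold `M`. -/
abbrev M : Type := RL.Carrier

theorem bound (x : E) (hx : G x = 0) : ‖x‖ ≤ 2 := by
  obtain ⟨hc, hf, hD, hv, hre⟩ := (mem_iff x).1 hx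
  have hD2 : ‖dW x.1‖ ≤ 2 := by nlinarith [norm_nonneg (dW x.1), sq_nonneg x.1.2.2.2]
  have hs : ‖x.1.2.2.2‖ ≤ 2 := by
    rw [Real.norm_eq_abs]
    exact abs_le_of_sq_le_sq (by nlinarith [norm_nonneg (dW x.1)]) (by norm_num)
  have h1 : x.1.2.1 ^ 2 = (1 / 2 : ℂ) * (fW x.1 + dW x.1) := by simp only [fW, dW]; ring
  have h2 : x.1.2.2.1 ^ 3 = (1 / 2 : ℂ) * (fW x.1 - dW x.1) := by simp only [fW, dW]; ring
  have h3 : ‖x.1.2.1‖ ^ 2 ≤ 3 / 2 := by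
    rw [← norm_pow, h1, norm_mul]
    have := norm_add_le (fW x.1) (dW x.1)
    norm_num
    linarith
  have h4 : ‖x.1.2.2.1‖ ^ 3 ≤ 3 / 2 := by
    rw [← norm_pow, h2, norm_mul]
    have := norm_sub_le (fW x.1) (dW x.1)
    norm_num
    linarith
  have h5 : ‖x.1.2.1‖ ≤ 2 := by nlinarith [norm_nonneg x.1.2.1]
  have h6 : ‖x.1.2.2.1‖ ≤ 2 := by
    by_contra h
    push Not at h
    have : (2 : ℝ) ^ 3 < ‖x.1.2.2.1‖ ^ 3 := by gcongr
    linarith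
  refine max_le (max_le ?_ (max_le h5 (max_le h6 hs))) ?_
  · exact hc.le.trans (by norm_num)
  · exact hv.le.trans (by norm_num)

instance : CompactSpace M := RL.compactSpace bound

end Vale.Agent.P265.Dis
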